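import Vale.Agent.P064.Fraction.Iter
import Vale.Agent.P064.Dense

/-!
The embeddings of a pattern with `e` edges into a host in which every edge set has expected count
at least one half at density `q`: there are at most `n^w (C q log (4 + |H0| / e))^e` of them.
-/

namespace Vale.Agent.P064.Fraction

open Finset

variable {n w : ℕ}

/-- The image of a pattern. -/
def img (F : Finset (Sym2 (Fin w))) (φ : Fin w ↪ Fin n) : Finset (Sym2 (Fin n)) :=
  F.image (Sym2.map φ)

theorem card_img (F : Finset (Sym2 (Fin w))) (φ : Fin w ↪ Fin n) : (img F φ).card = F.card :=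
  card_image_of_injective _ (Sym2.map.injective φ.injective)

theorem mem_embs {G : Finset (Sym2 (Fin n))} {F : Finset (Sym2 (Fin w))} {φ : Fin w ↪ Fin n} :
    φ ∈ embs G F ↔ img F φ ⊆ G := by
  simp only [embs, mem_filter, mem_univ, true_and, img, Finset.image_subset_iff]

theorem img_trans (F : Finset (Sym2 (Fin w))) (φ : Fin w ↪ Fin n) (σ : Equiv.Perm (Fin n)) :
    img F (φ.trans σ.toEmbedding) = tr (pairAct n) σ (img F φ) := by
  rw [tr_pairAct, img, img, Finset.image_image]
  refine Finset.image_congr fun e _ => ?_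
  simp only [Function.comp_apply, Sym2.map_map]
  rfl

theorem embs_tr_le {U G : Finset (Sym2 (Fin n))} {σ : Equiv.Perm (Fin n)}
    (h : tr (pairAct n) σ U ⊆ G) (F : Finset (Sym2 (Fin w))) :
    (embs U F).card ≤ (embs G F).card := by
  refine card_le_card_of_injOn (fun φ => φ.trans σ.toEmbedding) ?_ ?_
  · intro φ hφ
    refine mem_coe.2 (mem_embs.2 ?_)
    rw [img_trans]
    exact ((tr_subset_iff _ σ).2 (mem_embs.1 (mem_coe.1 hφ))).trans h
  · intro a _ b _ hab
    ext i : 1
    exact σ.injective (by simpa using DFunLike.congr_fun hab i)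

/-- The sequences of `k` copies in the complete graph with union `J`, counted with multiplicity. -/
noncomputable def seqs (F : Finset (Sym2 (Fin w))) (k : ℕ) (J : Finset (Sym2 (Fin n))) : ℝ :=
  itF univ (img F) k (hits J) ∅

theorem itF_hits_tr (F : Finset (Sym2 (Fin w))) (σ : Equiv.Perm (Fin n))
    (J : Finset (Sym2 (Fin n))) :
    ∀ (k : ℕ) (U : Finset (Sym2 (Fin n))),
      itF univ (img F) k (hits (tr (pairAct n) σ J)) (tr (pairAct n) σ U) =
        itF univ (img F) k (hits J) U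
  | 0, U => by simp [itF, hits, (tr_injective (pairAct n) σ).eq_iff]
  | k + 1, U => by
    simp only [itF]
    let ev : (Fin w ↪ Fin n) ≃ (Fin w ↪ Fin n) :=
      Equiv.embeddingCongr (Equiv.refl (Fin w)) σ
    have hev : ∀ φ, ev φ = φ.trans σ.toEmbedding := fun φ => by
      ext i; simp [ev]
    rw [← Equiv.sum_comp ev]
    refine Finset.sum_congr rfl fun φ _ => ?_
    rw [hev, img_trans, ← tr_union, itF_hits_tr F σ J k]

theorem seqs_tr (F : Finset (Sym2 (Fin w))) (k : ℕ) (σ : Equiv.Perm (Fin n))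
    (J : Finset (Sym2 (Fin n))) : seqs F k (tr (pairAct n) σ J) = seqs F k J := by
  have h := itF_hits_tr F σ J k ∅
  rwa [tr_empty] at h

/-- A union inside the host is rare among its translates. -/
theorem seqs_le {q : ℝ} {H0 J : Finset (Sym2 (Fin n))} (hR : Rich q H0) (hJ : J ⊆ H0)
    (F : Finset (Sym2 (Fin w))) (k : ℕ) {lam : ℝ} (hlam : 0 ≤ lam)
    {ψ : Finset (Sym2 (Fin n)) → ℝ} (hψ0 : ∀ V, 0 ≤ ψ V)
    (hψ : ∀ V ∈ orb (pairAct n) J, (lam * q) ^ V.card ≤ ψ V) :
    seqs F k J * lam ^ J.card ≤ 2 * itF univ (img F) k ψ ∅ := by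
  classical
  set O := orb (pairAct n) J with hO
  have ht0 : 0 ≤ seqs F k J :=
    itF_nonneg _ _ (fun U => by simp only [hits]; split_ifs <;> norm_num) k ∅
  have hsum : ∑ V ∈ O, (lam * q) ^ J.card * seqs F k V =
      (O.card : ℝ) * ((lam * q) ^ J.card * seqs F k J) := by
    rw [Finset.sum_congr rfl (g := fun _ => (lam * q) ^ J.card * seqs F k J) ?_, sum_const,
      nsmul_eq_mul]
    intro V hV
    obtain ⟨σ, rfl⟩ := (mem_orb _).1 hV
    rw [seqs_tr]
  have hle : ∑ V ∈ O, (lam * q) ^ J.card * seqs F k V ≤ itF univ (img F) k ψ ∅ := by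
    simp only [seqs]
    rw [← itF_linear univ (img F) O (fun _ => (lam * q) ^ J.card) hits k ∅]
    refine itF_mono _ _ (fun _ => True) (fun _ _ _ _ => trivial) (fun V _ => ?_) k _ trivial
    simp only [hits, mul_ite, mul_one, mul_zero]
    rw [Finset.sum_ite_eq O V fun _ => (lam * q) ^ J.card]
    split_ifs with h
    · rw [← card_of_mem_orb _ h]; exact hψ V h
    · exact hψ0 V
  have h1 : seqs F k J * lam ^ J.card * 1 ≤
      seqs F k J * lam ^ J.card * (2 * ((O.card : ℝ) * q ^ J.card)) :=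
    mul_le_mul_of_nonneg_left (by linarith [hR J hJ]) (mul_nonneg ht0 (pow_nonneg hlam _))
  rw [hsum, mul_pow] at hle
  nlinarith

theorem hits_nonneg (J U : Finset (Sym2 (Fin n))) : 0 ≤ hits J U := by
  simp only [hits]; split_ifs <;> norm_num

theorem sum_hits (s : Finset (Finset (Sym2 (Fin n)))) (V : Finset (Sym2 (Fin n))) :
    ∑ J ∈ s, (1 : ℝ) * hits J V = if V ∈ s then 1 else 0 := by
  simp only [hits, one_mul]
  rw [Finset.sum_ite_eq]

theorem card_emb_le : (Fintype.card (Fin w ↪ Fin n) : ℝ) ≤ (n : ℝ) ^ w := by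
  rw [Fintype.card_embedding_eq, Fintype.card_fin, Fintype.card_fin]
  exact_mod_cast Nat.descFactorial_le_pow n w

/-- In any host the copies are at most twice as many as edge sets allow. -/
theorem embs_le_two_pow {q : ℝ} {H0 G : Finset (Sym2 (Fin n))} (hq : 0 ≤ q) (hR : Rich q H0)
    (hG : G ⊆ H0) (F : Finset (Sym2 (Fin w))) :
    ((embs G F).card : ℝ) ≤ 2 ^ G.card * (2 * ((n : ℝ) ^ w * q ^ F.card)) := by
  classical
  have hN1 : ((embs G F).card : ℝ) = itF (embs G F) (img F) 1 (fun _ => 1) ∅ := by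
    rw [itF_one, pow_one]
  rw [hN1]
  refine le_trans (itF_mono _ _ (fun V => V ⊆ G)
    (fun V i hi h => union_subset h (mem_embs.1 hi))
    (g := fun V => ∑ J ∈ G.powerset, (1 : ℝ) * hits J V)
    (fun V hV => by rw [sum_hits, if_pos (mem_powerset.2 hV)]) 1 ∅ (empty_subset _)) ?_
  rw [itF_linear]
  refine le_trans (Finset.sum_le_sum (g := fun _ => 2 * ((n : ℝ) ^ w * q ^ F.card))
    fun J hJ => ?_) (le_of_eq (by rw [sum_const, nsmul_eq_mul, card_powerset]; norm_num))
  rw [one_mul]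
  refine (itF_le_of_subset _ _ (subset_univ _) (hits_nonneg J) 1 ∅).trans ?_
  by_cases hJc : J.card = F.card
  · have h := seqs_le hR ((mem_powerset.1 hJ).trans hG) F 1 zero_le_one
      (ψ := fun _ => q ^ F.card) (fun _ => by positivity)
      (fun V hV => by rw [one_mul, card_of_mem_orb _ hV, hJc])
    rw [one_pow, mul_one] at h
    refine h.trans (mul_le_mul_of_nonneg_left ?_ zero_le_two)
    simp only [itF, sum_const, nsmul_eq_mul, card_univ]
    exact mul_le_mul_of_nonneg_right card_emb_le (by positivity)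
  · have h0 : itF univ (img F) 1 (hits J) (∅ : Finset (Sym2 (Fin n))) = 0 := by
      simp only [itF, empty_union]
      refine Finset.sum_eq_zero fun φ _ => ?_
      rw [hits, if_neg fun h => hJc (by rw [← h, card_img])]
    rw [h0]; positivity

/-- If every edge is often missed by no more than a quarter of the sequences, half of the sequences
cover half of the host. -/
theorem cover_half {G : Finset (Sym2 (Fin n))} (hG : 0 < G.card) (F : Finset (Sym2 (Fin w)))
    (k : ℕ) (hx : ∀ x ∈ G, (((embs G F).filter fun φ => x ∉ img F φ).card : ℝ) ^ k ≤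
      ((embs G F).card : ℝ) ^ k / 4) :
    ((embs G F).card : ℝ) ^ k / 2 ≤
      ∑ J ∈ G.powerset.filter (fun J => G.card ≤ 2 * J.card), seqs F k J := by
  classical
  set A := embs G F with hA
  set g := G.card with hg
  have hgR : (0 : ℝ) < g := by exact_mod_cast hG
  have hsum : ∑ x ∈ G, itF A (img F) k (fun V => if x ∈ V then 0 else 1) ∅ =
      itF A (img F) k (fun V => ∑ x ∈ G, (1 : ℝ) * (if x ∈ V then 0 else 1)) ∅ := by
    rw [itF_linear]; simp only [one_mul]
  have h1 : (A.card : ℝ) ^ k + (-(2 / (g : ℝ))) * ∑ x ∈ G,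
      itF A (img F) k (fun V => if x ∈ V then 0 else 1) ∅ ≤
        ∑ J ∈ G.powerset.filter (fun J => g ≤ 2 * J.card), seqs F k J := by
    rw [hsum, ← itF_one A (img F) k ∅, ← itF_add_smul]
    refine le_trans (itF_mono _ _ (fun V => V ⊆ G)
      (fun V i hi h => union_subset h (mem_embs.1 hi))
      (g := fun V => ∑ J ∈ G.powerset.filter (fun J => g ≤ 2 * J.card), (1 : ℝ) * hits J V)
      (fun V hV => ?_) k ∅ (empty_subset _)) ?_
    · rw [sum_hits]
      simp only [one_mul]
      have hcount : ∑ x ∈ G, (if x ∈ V then (0 : ℝ) else 1) = (g : ℝ) - V.card := by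
        rw [Finset.sum_ite, sum_const_zero, zero_add, sum_const, nsmul_eq_mul, mul_one,
          ← sdiff_eq_filter, card_sdiff_of_subset hV, Nat.cast_sub (card_le_card hV)]
      rw [hcount]
      split_ifs with hVg
      · have : (V.card : ℝ) ≤ g := by exact_mod_cast card_le_card hV
        nlinarith [show 0 ≤ 2 / (g : ℝ) by positivity]
      · have h3 : 2 * (V.card : ℝ) ≤ g := by
          have : ¬ g ≤ 2 * V.card := fun h => hVg (mem_filter.2 ⟨mem_powerset.2 hV, h⟩)
          exact_mod_cast (not_le.1 this).le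
        have h4 : 1 ≤ 2 / (g : ℝ) * ((g : ℝ) - V.card) := by
          rw [div_mul_eq_mul_div, le_div_iff₀ hgR]; linarith
        linarith
    · rw [itF_linear]
      simp only [one_mul, seqs]
      exact Finset.sum_le_sum fun J _ => itF_le_of_subset _ _ (subset_univ _) (hits_nonneg J) k ∅
  have h2 := Finset.sum_le_sum fun x hxG => (itF_avoid_le A (img F) x k ∅).trans (hx x hxG)
  rw [sum_const, nsmul_eq_mul] at h2
  refine le_trans ?_ h1
  have h3 := mul_le_mul_of_nonneg_left h2 (show 0 ≤ 2 / (g : ℝ) by positivity)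
  rw [show 2 / (g : ℝ) * ((g : ℝ) * ((A.card : ℝ) ^ k / 4)) = (A.card : ℝ) ^ k / 2 by
    field_simp; ring] at h3
  linarith

open scoped Classical in
/-- The weight of a set of edges with a translate inside `G`. -/
noncomputable def shapeWt (G : Finset (Sym2 (Fin n))) (c : ℝ) (U : Finset (Sym2 (Fin n))) : ℝ :=
  if ∃ σ, tr (pairAct n) σ U ⊆ G then c ^ U.card else 0

theorem shapeWt_nonneg {G : Finset (Sym2 (Fin n))} {c : ℝ} (hc : 0 ≤ c)
    (U : Finset (Sym2 (Fin n))) : 0 ≤ shapeWt G c U := by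
  classical
  simp only [shapeWt]; split_ifs <;> positivity

theorem card_union_img (U : Finset (Sym2 (Fin n))) (F : Finset (Sym2 (Fin w))) (φ : Fin w ↪ Fin n) :
    (U ∪ img F φ).card = U.card + (F.card - (F.filter fun x => Sym2.map φ x ∈ U).card) := by
  have h1 : (img F φ ∩ U) = (F.filter fun x => Sym2.map φ x ∈ U).image (Sym2.map φ) := by
    ext y
    simp only [img, mem_inter, mem_image, mem_filter]
    constructor
    · rintro ⟨⟨x, hx, rfl⟩, hy⟩; exact ⟨x, ⟨hx, hy⟩, rfl⟩
    · rintro ⟨x, ⟨hx, hy⟩, rfl⟩; exact ⟨⟨x, hx, rfl⟩, hy⟩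
  rw [union_comm, ← card_sdiff_add_card]
  have h2 := card_sdiff_add_card_inter (img F φ) U
  rw [card_img, h1, card_image_of_injective _ (Sym2.map.injective φ.injective)] at h2
  omega

/-- One more copy multiplies the weight by at most `A (a + c)^|F|`. -/
theorem shapeWt_step {G : Finset (Sym2 (Fin n))} {a c A : ℝ} (hc : 0 ≤ c)
    (F : Finset (Sym2 (Fin w)))
    (hsub : ∀ F'' ⊆ F, ((embs G F'').card : ℝ) ≤ A * a ^ F''.card)
    (U : Finset (Sym2 (Fin n))) :
    ∑ φ : Fin w ↪ Fin n, shapeWt G c (U ∪ img F φ) ≤ A * (a + c) ^ F.card * shapeWt G c U := by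
  classical
  by_cases hU : ∃ σ, tr (pairAct n) σ U ⊆ G
  · obtain ⟨σ, hσ⟩ := hU
    have hψU : shapeWt G c U = c ^ U.card := if_pos ⟨σ, hσ⟩
    rw [hψU]
    calc ∑ φ : Fin w ↪ Fin n, shapeWt G c (U ∪ img F φ)
        ≤ ∑ φ : Fin w ↪ Fin n,
            c ^ U.card * c ^ (F.card - (F.filter fun x => Sym2.map φ x ∈ U).card) := by
          refine Finset.sum_le_sum fun φ _ => ?_
          simp only [shapeWt]
          split_ifs with h
          · rw [card_union_img, pow_add]
          · positivity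
      _ = c ^ U.card * ∑ F'' ∈ F.powerset,
            ∑ φ ∈ univ.filter (fun φ : Fin w ↪ Fin n =>
              (F.filter fun x => Sym2.map φ x ∈ U) = F''), c ^ (F.card - F''.card) := by
          rw [← Finset.mul_sum, ← Finset.sum_fiberwise_of_maps_to
            (g := fun φ : Fin w ↪ Fin n => F.filter fun x => Sym2.map φ x ∈ U)
            (fun φ _ => mem_powerset.2 (filter_subset _ _))]
          congr 1
          refine Finset.sum_congr rfl fun F'' _ => Finset.sum_congr rfl fun φ hφ => ?_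
          rw [(mem_filter.1 hφ).2]
      _ ≤ c ^ U.card * ∑ F'' ∈ F.powerset, A * (a ^ F''.card * c ^ (F.card - F''.card)) := by
          refine mul_le_mul_of_nonneg_left (Finset.sum_le_sum fun F'' hF'' => ?_) (by positivity)
          rw [sum_const, nsmul_eq_mul, ← mul_assoc]
          refine mul_le_mul_of_nonneg_right ?_ (by positivity)
          refine le_trans ?_ (hsub F'' (mem_powerset.1 hF''))
          refine Nat.cast_le.2 ((card_le_card ?_).trans (embs_tr_le hσ F''))
          intro φ hφ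
          refine mem_embs.2 fun y hy => ?_
          obtain ⟨x, hx, rfl⟩ := mem_image.1 hy
          rw [← (mem_filter.1 hφ).2] at hx
          exact (mem_filter.1 hx).2
      _ = _ := by
          rw [← Finset.mul_sum, Finset.sum_pow_mul_eq_add_pow]
          ring
  · have h0 : ∀ φ : Fin w ↪ Fin n, shapeWt G c (U ∪ img F φ) = 0 := fun φ =>
      if_neg fun ⟨σ, h⟩ => hU ⟨σ, ((tr_subset_iff _ σ).2 subset_union_left).trans h⟩
    have h1 : shapeWt G c U = 0 := if_neg hU
    rw [h1, mul_zero]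
    exact le_of_eq (Finset.sum_eq_zero fun φ _ => h0 φ)

/-- Few sequences cover half of a host. -/
theorem cover_le {q : ℝ} {H0 G : Finset (Sym2 (Fin n))} (hq : 0 ≤ q) (hR : Rich q H0) (hG : G ⊆ H0)
    {a A : ℝ} (ha : 0 ≤ a) (hA : 0 ≤ A) (F : Finset (Sym2 (Fin w)))
    (hsub : ∀ F'' ⊆ F, ((embs G F'').card : ℝ) ≤ A * a ^ F''.card) (k : ℕ) :
    (∑ J ∈ G.powerset.filter (fun J => G.card ≤ 2 * J.card), seqs F k J) * 16 ^ G.card ≤
      2 * 2 ^ G.card * (A * (a + 256 * q) ^ F.card) ^ k := by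
  classical
  have hψe : shapeWt G (256 * q) ∅ = 1 := by
    simp only [shapeWt]
    rw [if_pos ⟨1, by rw [tr_empty]; exact empty_subset _⟩, card_empty, pow_zero]
  have hS := itF_le_pow (univ : Finset (Fin w ↪ Fin n)) (img F) (by positivity)
    (fun U => shapeWt_step (c := 256 * q) (by positivity) F hsub U) k ∅
  rw [hψe, mul_one] at hS
  have hterm : ∀ J ∈ G.powerset.filter (fun J => G.card ≤ 2 * J.card),
      seqs F k J * 16 ^ G.card ≤ 2 * (A * (a + 256 * q) ^ F.card) ^ k := by
    intro J hJ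
    obtain ⟨hJ1, hJ2⟩ := mem_filter.1 hJ
    rw [mem_powerset] at hJ1
    have h := seqs_le hR (hJ1.trans hG) F k (show (0 : ℝ) ≤ 256 by norm_num)
      (shapeWt_nonneg (G := G) (c := 256 * q) (by positivity)) (fun V hV => by
        obtain ⟨σ, rfl⟩ := (mem_orb _).1 hV
        simp only [shapeWt]
        rw [if_pos ⟨σ⁻¹, by rw [tr_inv_tr]; exact hJ1⟩])
    refine le_trans (mul_le_mul_of_nonneg_left ?_ ?_)
      (h.trans (mul_le_mul_of_nonneg_left hS zero_le_two))
    · calc (16 : ℝ) ^ G.card ≤ 16 ^ (2 * J.card) := pow_le_pow_right₀ (by norm_num) hJ2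
        _ = 256 ^ J.card := by rw [pow_mul]; norm_num
    · exact itF_nonneg _ _ (hits_nonneg J) k ∅
  rw [Finset.sum_mul]
  refine (Finset.sum_le_sum hterm).trans ?_
  rw [sum_const, nsmul_eq_mul, mul_comm (2 : ℝ) (2 ^ G.card), mul_assoc]
  refine mul_le_mul_of_nonneg_right ?_ (by positivity)
  exact_mod_cast (card_filter_le _ _).trans (le_of_eq (card_powerset G))

/-- The main step: a host in which every pattern and every smaller host obey the bound with
constant `M` obeys a much smaller one, so it has no copy. -/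
theorem no_large_host {q : ℝ} {H0 G : Finset (Sym2 (Fin n))} (hq : 0 < q) (hR : Rich q H0)
    (hG : G ⊆ H0) {e : ℕ} (he : 0 < e) (hge : e < G.card) {L : ℝ} (hL : 1 ≤ L) {M : ℝ} (hM : 0 ≤ M)
    (F : Finset (Sym2 (Fin w))) (hF : F.card ≤ e)
    (hsub : ∀ F'' ⊆ F, ((embs G F'').card : ℝ) ≤
      M * (G.card : ℝ) ^ ((e : ℝ) / L) * (768 * L * q) ^ F''.card)
    (hdel : ∀ x ∈ G, ((embs (G.erase x) F).card : ℝ) ≤
      M * ((G.card : ℝ) - 1) ^ ((e : ℝ) / L) * (768 * L * q) ^ F.card)
    (heq : M * (G.card : ℝ) ^ ((e : ℝ) / L) * (768 * L * q) ^ F.card = (embs G F).card) :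
    (embs G F).card = 0 := by
  classical
  set g := G.card with hg
  set Γ : ℝ := e / L with hΓ
  set K : ℝ := 768 * L with hK
  set N : ℝ := ((embs G F).card : ℝ) with hN
  by_contra hne
  have hN0 : 0 < N := by rw [hN]; exact_mod_cast Nat.pos_of_ne_zero hne
  have heR : (0 : ℝ) < e := by exact_mod_cast he
  have hgR : (0 : ℝ) < g := by exact_mod_cast (by omega : 0 < g)
  have hΓ0 : 0 < Γ := by positivity
  have hK0 : 0 < K := by positivity
  set k := ⌈2 * (g : ℝ) / Γ⌉₊ with hk
  have hk1 : 2 * (g : ℝ) ≤ k * Γ := by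
    have := Nat.le_ceil (2 * (g : ℝ) / Γ)
    rwa [← hk, div_le_iff₀ hΓ0] at this
  have hk2 : (k : ℝ) ≤ 3 * g / Γ := by
    refine (Nat.ceil_lt_add_one (by positivity)).le.trans ?_
    have h1 : 1 ≤ (g : ℝ) / Γ := by
      rw [le_div_iff₀ hΓ0, one_mul]
      exact (div_le_self heR.le hL).trans (by exact_mod_cast hge.le)
    have h2 : 2 * (g : ℝ) / Γ = 2 * ((g : ℝ) / Γ) := by ring
    have h3 : 3 * (g : ℝ) / Γ = 3 * ((g : ℝ) / Γ) := by ring
    rw [h2, h3]; linarith
  have hg1 : (0 : ℝ) ≤ 1 - 1 / g := by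
    rw [sub_nonneg, div_le_one hgR]; exact_mod_cast (by omega : 1 ≤ g)
  have hx : ∀ x ∈ G, (((embs G F).filter fun φ => x ∉ img F φ).card : ℝ) ^ k ≤ N ^ k / 4 := by
    intro x hx
    have h1 : (((embs G F).filter fun φ => x ∉ img F φ).card : ℝ) ≤ N * Real.exp (-(Γ / g)) := by
      refine le_trans (Nat.cast_le.2 (card_le_card (t := embs (G.erase x) F) fun φ hφ => ?_)) ?_
      · obtain ⟨h1, h2⟩ := mem_filter.1 hφ
        exact mem_embs.2 fun y hy => mem_erase.2 ⟨fun h => h2 (h ▸ hy), mem_embs.1 h1 hy⟩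
      refine (hdel x hx).trans ?_
      rw [show (g : ℝ) - 1 = (g : ℝ) * (1 - 1 / g) by field_simp, Real.mul_rpow hgR.le hg1, ← heq]
      have h3 : (1 - 1 / (g : ℝ)) ^ Γ ≤ Real.exp (-(Γ / g)) := by
        rw [show -(Γ / (g : ℝ)) = (-(1 / (g : ℝ))) * Γ by ring, Real.exp_mul]
        exact Real.rpow_le_rpow hg1 (by linarith [Real.add_one_le_exp (-(1 / (g : ℝ)))]) hΓ0.le
      calc M * ((g : ℝ) ^ Γ * (1 - 1 / (g : ℝ)) ^ Γ) * (K * q) ^ F.card
          ≤ M * ((g : ℝ) ^ Γ * Real.exp (-(Γ / g))) * (K * q) ^ F.card := by gcongr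
        _ = _ := by ring
    refine (pow_le_pow_left₀ (Nat.cast_nonneg _) h1 k).trans ?_
    rw [mul_pow, ← Real.exp_nat_mul]
    have h2 : Real.exp ((k : ℝ) * -(Γ / g)) ≤ 1 / 4 := by
      have h4 : (k : ℝ) * -(Γ / g) ≤ -2 := by
        rw [mul_neg, neg_le_neg_iff, ← mul_div_assoc, le_div_iff₀ hgR]
        exact hk1
      refine (Real.exp_le_exp.2 h4).trans ?_
      rw [Real.exp_neg, one_div]
      refine inv_anti₀ (by norm_num) ?_
      rw [show (2 : ℝ) = 1 + 1 by norm_num, Real.exp_add]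
      nlinarith [Real.add_one_le_exp (1 : ℝ)]
    calc N ^ k * Real.exp ((k : ℝ) * -(Γ / g)) ≤ N ^ k * (1 / 4) :=
          mul_le_mul_of_nonneg_left h2 (by positivity)
      _ = _ := by ring
  have hlow := cover_half (by omega) F k hx
  have hup := cover_le hq.le hR hG (a := K * q) (A := M * (g : ℝ) ^ Γ) (by positivity)
    (mul_nonneg hM (Real.rpow_nonneg hgR.le _)) F hsub k
  have hfac : M * (g : ℝ) ^ Γ * (K * q + 256 * q) ^ F.card = N * (1 + 256 / K) ^ F.card := by
    rw [← heq, show K * q + 256 * q = (K * q) * (1 + 256 / K) by field_simp, mul_pow (K * q)]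
    ring
  rw [hfac, mul_pow, ← pow_mul] at hup
  have hexp : (1 + 256 / K) ^ (F.card * k) ≤ (3 : ℝ) ^ g := by
    calc (1 + 256 / K) ^ (F.card * k) ≤ Real.exp (256 / K) ^ (F.card * k) :=
          pow_le_pow_left₀ (by positivity) (by linarith [Real.add_one_le_exp (256 / K)]) _
      _ = Real.exp (((F.card * k : ℕ) : ℝ) * (256 / K)) := (Real.exp_nat_mul _ _).symm
      _ ≤ Real.exp ((g : ℝ) * 1) := by
          refine Real.exp_le_exp.2 ?_
          push_cast
          calc (F.card : ℝ) * k * (256 / K) ≤ e * (3 * g / Γ) * (256 / K) := by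
                refine mul_le_mul_of_nonneg_right (mul_le_mul (by exact_mod_cast hF) hk2
                  (Nat.cast_nonneg _) heR.le) (by positivity)
            _ = (g : ℝ) * 1 := by
                rw [hΓ, hK]
                field_simp
                ring
      _ ≤ _ := by
          rw [Real.exp_nat_mul]
          exact pow_le_pow_left₀ (Real.exp_pos _).le (by linarith [Real.exp_one_lt_d9]) g
  have h1 := mul_le_mul_of_nonneg_right hlow (show (0 : ℝ) ≤ 16 ^ g by positivity)
  have h2 := h1.trans hup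
  have h3 : 2 * 2 ^ g * (N ^ k * (1 + 256 / K) ^ (F.card * k)) ≤
      2 * ((3 : ℝ) / 8) ^ g * (N ^ k * 16 ^ g) := by
    calc 2 * 2 ^ g * (N ^ k * (1 + 256 / K) ^ (F.card * k)) ≤ 2 * 2 ^ g * (N ^ k * 3 ^ g) := by
          gcongr
      _ = 2 * (((3 : ℝ) / 8) * 16) ^ g * N ^ k := by
          rw [show ((3 : ℝ) / 8) * 16 = 2 * 3 by norm_num, mul_pow]; ring
      _ = _ := by rw [mul_pow]; ring
  have h4 : ((3 : ℝ) / 8) ^ g ≤ (3 / 8) ^ 2 :=
    pow_le_pow_of_le_one (by norm_num) (by norm_num) (by omega)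
  have h5 : 0 < N ^ k * 16 ^ g := by positivity
  have h6 := mul_le_mul_of_nonneg_right h4 h5.le
  have h7 := h2.trans h3
  rw [show N ^ k / 2 * 16 ^ g = (N ^ k * 16 ^ g) / 2 by ring] at h7
  nlinarith

/-- The constant of `embs_le_log`. -/
def countC : ℝ := 12 * 768

theorem embs_le_log {q : ℝ} {H0 : Finset (Sym2 (Fin n))} (hq : 0 < q) (hR : Rich q H0)
    (F : Finset (Sym2 (Fin w))) :
    ((embs H0 F).card : ℝ) ≤
      (n : ℝ) ^ w * (countC * Real.log (4 + (H0.card : ℝ) / F.card) * q) ^ F.card := by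
  classical
  set e := F.card with he
  have hd : 0 ≤ (H0.card : ℝ) / e := by positivity
  have hL1 : 1 ≤ Real.log (4 + (H0.card : ℝ) / e) := by
    rw [Real.le_log_iff_exp_le (by positivity)]
    linarith [Real.exp_one_lt_d9]
  set L := Real.log (4 + (H0.card : ℝ) / e) with hL
  rcases (embs H0 F).eq_empty_or_nonempty with h | ⟨φ₀, hφ₀⟩
  · rw [h, card_empty, Nat.cast_zero, countC]
    positivity
  rcases Nat.eq_zero_or_pos e with he0 | he0
  · rw [he0, pow_zero, mul_one]
    exact le_trans (Nat.cast_le.2 (card_le_univ _)) card_emb_le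
  have hw : 0 < w := by
    obtain ⟨x, -⟩ := card_pos.1 he0
    induction x using Sym2.ind with
    | _ a b => exact Fin.pos a
  have hn : (0 : ℝ) < n := by exact_mod_cast Fin.pos (φ₀ ⟨0, hw⟩)
  have heR : (0 : ℝ) < e := by exact_mod_cast he0
  set Γ : ℝ := e / L with hΓ
  have hΓ0 : 0 < Γ := by positivity
  set mm : Finset (Sym2 (Fin n)) → ℝ := fun G => ((max G.card e : ℕ) : ℝ) with hmm
  have hmm0 : ∀ G, 0 < mm G := fun G => by
    simp only [hmm]; exact_mod_cast lt_max_of_lt_right he0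
  set D : Finset (Sym2 (Fin w)) × Finset (Sym2 (Fin n)) → ℝ := fun p =>
    mm p.2 ^ Γ * ((n : ℝ) ^ w * (768 * L * q) ^ p.1.card) with hD
  have hD0 : ∀ p, 0 < D p := fun p => mul_pos (Real.rpow_pos_of_pos (hmm0 _) _) (by positivity)
  obtain ⟨p, hp, hmax⟩ := (F.powerset ×ˢ H0.powerset).exists_max_image
    (fun p => ((embs p.2 p.1).card : ℝ) / D p)
    ⟨(F, H0), mem_product.2 ⟨mem_powerset_self _, mem_powerset_self _⟩⟩
  set M := ((embs p.2 p.1).card : ℝ) / D p with hM
  have hM0 : 0 ≤ M := div_nonneg (Nat.cast_nonneg _) (hD0 p).le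
  have hall : ∀ F'' ⊆ F, ∀ G' ⊆ H0, ((embs G' F'').card : ℝ) ≤ M * D (F'', G') := by
    intro F'' h1 G' h2
    rw [← div_le_iff₀ (hD0 _)]
    exact hmax (F'', G') (mem_product.2 ⟨mem_powerset.2 h1, mem_powerset.2 h2⟩)
  have hND : ((embs p.2 p.1).card : ℝ) = M * D p := (div_mul_cancel₀ _ (hD0 p).ne').symm
  obtain ⟨F', G⟩ := p
  obtain ⟨hF', hG⟩ := mem_product.1 hp
  rw [mem_powerset] at hF' hG
  have hMB : M ≤ 2 * 2 ^ e / (e : ℝ) ^ Γ := by
    rcases le_or_gt G.card e with hge | hge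
    · rw [hM, div_le_iff₀ (hD0 _)]
      refine (embs_le_two_pow hq.le hR hG F').trans ?_
      have hmmG : mm G = e := by simp only [hmm]; rw [max_eq_right hge]
      simp only [hD, hmmG]
      calc (2 : ℝ) ^ G.card * (2 * ((n : ℝ) ^ w * q ^ F'.card))
          ≤ 2 ^ e * (2 * ((n : ℝ) ^ w * (768 * L * q) ^ F'.card)) := by
            refine mul_le_mul (pow_le_pow_right₀ one_le_two hge) (mul_le_mul_of_nonneg_left
              (mul_le_mul_of_nonneg_left (pow_le_pow_left₀ hq.le ?_ _) (by positivity)) zero_le_two)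
              (by positivity) (by positivity)
            exact le_mul_of_one_le_left hq.le (by linarith)
        _ = _ := by
            have : (e : ℝ) ^ Γ ≠ 0 := (Real.rpow_pos_of_pos heR _).ne'
            field_simp
    · have hmmG : mm G = G.card := by simp only [hmm]; rw [max_eq_left hge.le]
      have hN := no_large_host hq hR hG he0 hge hL1
        (M := M * (n : ℝ) ^ w) (mul_nonneg hM0 (pow_nonneg hn.le w)) F' (card_le_card hF')
        (fun F'' h => by
          refine (hall F'' (h.trans hF') G hG).trans (le_of_eq ?_)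
          simp only [hD, hmmG]; ring)
        (fun x hx => by
          refine (hall F' hF' _ ((erase_subset _ _).trans hG)).trans (le_of_eq ?_)
          have h1 : mm (G.erase x) = (G.card : ℝ) - 1 := by
            simp only [hmm]
            rw [card_erase_of_mem hx, max_eq_left (show e ≤ G.card - 1 by omega),
              Nat.cast_sub (show 1 ≤ G.card by omega), Nat.cast_one]
          simp only [hD, h1]; ring)
        (by rw [hND]; simp only [hD, hmmG]; ring)
      rw [hM, hN, Nat.cast_zero, zero_div]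
      exact div_nonneg (mul_nonneg zero_le_two (pow_nonneg zero_le_two e))
        (Real.rpow_nonneg heR.le _)
  refine (hall F subset_rfl H0 subset_rfl).trans ?_
  refine (mul_le_mul_of_nonneg_right hMB (hD0 _).le).trans ?_
  simp only [hD]
  rw [← he]
  have h2 : mm H0 ^ Γ / (e : ℝ) ^ Γ ≤ 3 ^ e := by
    rw [← Real.div_rpow (hmm0 H0).le heR.le]
    have h3 : mm H0 / e ≤ 4 + (H0.card : ℝ) / e := by
      simp only [hmm, Nat.cast_max]
      rw [div_le_iff₀ heR, add_mul, div_mul_cancel₀ _ heR.ne']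
      refine max_le ?_ ?_ <;> linarith [(Nat.cast_nonneg H0.card : (0 : ℝ) ≤ _)]
    refine (Real.rpow_le_rpow (div_nonneg (hmm0 H0).le heR.le) h3 hΓ0.le).trans ?_
    rw [Real.rpow_def_of_pos (by linarith), ← hL, hΓ,
      mul_div_cancel₀ _ (by linarith : L ≠ 0), ← mul_one (e : ℝ), Real.exp_nat_mul]
    exact pow_le_pow_left₀ (Real.exp_pos _).le (by linarith [Real.exp_one_lt_d9]) e
  have h2e : (2 : ℝ) ≤ 2 ^ e := le_self_pow₀ (by norm_num) (by omega)
  calc 2 * 2 ^ e / (e : ℝ) ^ Γ * (mm H0 ^ Γ * ((n : ℝ) ^ w * (768 * L * q) ^ e))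
      = 2 * 2 ^ e * (mm H0 ^ Γ / (e : ℝ) ^ Γ) * ((n : ℝ) ^ w * (768 * L * q) ^ e) := by ring
    _ ≤ 2 ^ e * 2 ^ e * 3 ^ e * ((n : ℝ) ^ w * (768 * L * q) ^ e) := by
        refine mul_le_mul_of_nonneg_right (mul_le_mul (mul_le_mul_of_nonneg_right h2e
          (by positivity)) h2 (div_nonneg (Real.rpow_nonneg (hmm0 H0).le _)
            (Real.rpow_nonneg heR.le _)) (by positivity)) (by positivity)
    _ = _ := by
        rw [← mul_pow, ← mul_pow, mul_left_comm, ← mul_pow, countC]
        ring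

end Vale.Agent.P064.Fraction
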