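import Vale.Agent.P064.Defs
import Mathlib.Data.Set.Card

/-!
The threshold for containing a subgraph of `H` with a given share of the edges.
-/

namespace Vale.Agent.P064.Fraction

open Finset

open scoped Classical in
/-- The probability that `G(n,p)` contains a copy of some subgraph of `H` with at least
`(1 - δ) e(H)` edges. -/
noncomputable def probNear (n : ℕ) (p δ : ℝ) {α : Type} (H : SimpleGraph α) : ℝ :=
  ∑ W ∈ (pairsOf n).powerset,
    if ∃ F : H.Subgraph, (1 - δ) * (H.edgeSet.ncard : ℝ) ≤ (F.edgeSet.ncard : ℝ) ∧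
        0 < (SimpleGraph.fromEdgeSet (W : Set (Sym2 (Fin n)))).copyCount F.coe then
      gnpWeight n p W else 0

/-- The threshold for containing a copy of a subgraph of `H` with at least `(1 - δ) e(H)`
edges. -/
noncomputable def pNear (n : ℕ) (δ : ℝ) {α : Type} (H : SimpleGraph α) : ℝ :=
  sInf {p : ℝ | p ∈ Set.Icc 0 1 ∧ 1 / 2 ≤ probNear n p δ H}

end Vale.Agent.P064.Fraction
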