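import Vale.Agent.P064.Expectation

/-!
Sums over the unions of `k` members of an indexed family of sets, with multiplicity.
-/

namespace Vale.Agent.P064.Fraction

open Finset

variable {ι X : Type*} [DecidableEq X] (A : Finset ι) (s : ι → Finset X)

/-- Summing `f` of the union over the sequences of length `k` in `A`, starting from `U`. -/
noncomputable def itF : ℕ → (Finset X → ℝ) → Finset X → ℝ
  | 0, f, U => f U
  | k + 1, f, U => ∑ i ∈ A, itF k f (U ∪ s i)

theorem itF_one : ∀ (k : ℕ) (U : Finset X), itF A s k (fun _ => 1) U = (A.card : ℝ) ^ k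
  | 0, U => by simp [itF]
  | k + 1, U => by
    rw [itF, Finset.sum_congr rfl fun i _ => itF_one k _, sum_const, nsmul_eq_mul, pow_succ']

theorem itF_linear {β : Type*} (t : Finset β) (c : β → ℝ) (f : β → Finset X → ℝ) :
    ∀ (k : ℕ) (U : Finset X), itF A s k (fun V => ∑ b ∈ t, c b * f b V) U =
      ∑ b ∈ t, c b * itF A s k (f b) U
  | 0, U => rfl
  | k + 1, U => by
    simp only [itF]
    rw [Finset.sum_congr rfl fun i _ => itF_linear t c f k _, Finset.sum_comm]
    simp only [Finset.mul_sum]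

theorem itF_add_smul (c : ℝ) (f g : Finset X → ℝ) :
    ∀ (k : ℕ) (U : Finset X),
      itF A s k (fun V => f V + c * g V) U = itF A s k f U + c * itF A s k g U
  | 0, U => rfl
  | k + 1, U => by
    simp only [itF]
    rw [Finset.sum_congr rfl fun i _ => itF_add_smul c f g k _, Finset.sum_add_distrib,
      Finset.mul_sum]

theorem itF_mono {f g : Finset X → ℝ} (Inv : Finset X → Prop)
    (hInv : ∀ U, ∀ i ∈ A, Inv U → Inv (U ∪ s i)) (h : ∀ U, Inv U → f U ≤ g U) :
    ∀ (k : ℕ) (U : Finset X), Inv U → itF A s k f U ≤ itF A s k g U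
  | 0, U, hU => h U hU
  | k + 1, U, hU =>
    Finset.sum_le_sum fun i hi => itF_mono Inv hInv h k _ (hInv U i hi hU)

theorem itF_nonneg {f : Finset X → ℝ} (hf : ∀ U, 0 ≤ f U) :
    ∀ (k : ℕ) (U : Finset X), 0 ≤ itF A s k f U
  | 0, U => hf U
  | k + 1, U => Finset.sum_nonneg fun i _ => itF_nonneg hf k _

theorem itF_le_of_subset {B : Finset ι} (hAB : A ⊆ B) {f : Finset X → ℝ} (hf : ∀ U, 0 ≤ f U) :
    ∀ (k : ℕ) (U : Finset X), itF A s k f U ≤ itF B s k f U
  | 0, U => le_rfl
  | k + 1, U =>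
    le_trans (Finset.sum_le_sum fun i _ => itF_le_of_subset hAB hf k _)
      (Finset.sum_le_sum_of_subset_of_nonneg hAB fun i _ _ => itF_nonneg B s hf k _)

theorem itF_le_pow {a : ℝ} (ha : 0 ≤ a) {f : Finset X → ℝ}
    (h : ∀ U, ∑ i ∈ A, f (U ∪ s i) ≤ a * f U) :
    ∀ (k : ℕ) (U : Finset X), itF A s k f U ≤ a ^ k * f U
  | 0, U => by simp [itF]
  | k + 1, U => by
    calc itF A s (k + 1) f U ≤ ∑ i ∈ A, a ^ k * f (U ∪ s i) :=
          Finset.sum_le_sum fun i _ => itF_le_pow ha h k _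
      _ = a ^ k * ∑ i ∈ A, f (U ∪ s i) := (Finset.mul_sum _ _ _).symm
      _ ≤ a ^ k * (a * f U) := mul_le_mul_of_nonneg_left (h U) (pow_nonneg ha k)
      _ = a ^ (k + 1) * f U := by rw [pow_succ]; ring

/-- The sequences whose union misses `x`. -/
theorem itF_avoid_le (x : X) :
    ∀ (k : ℕ) (U : Finset X), itF A s k (fun V => if x ∈ V then 0 else 1) U ≤
      ((A.filter fun i => x ∉ s i).card : ℝ) ^ k
  | 0, U => by simp only [itF, pow_zero]; split_ifs <;> norm_num
  | k + 1, U => by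
    rw [itF, ← Finset.sum_filter_add_sum_filter_not A (fun i => x ∉ s i)]
    have h2 : ∑ i ∈ A.filter (fun i => ¬ x ∉ s i),
        itF A s k (fun V => if x ∈ V then (0 : ℝ) else 1) (U ∪ s i) ≤ 0 := by
      refine Finset.sum_nonpos fun i hi => ?_
      have hx : x ∈ s i := not_not.1 (mem_filter.1 hi).2
      refine le_trans (itF_mono A s (fun V => x ∈ V) (fun V j _ h => mem_union_left _ h)
        (g := fun V => ∑ b ∈ (∅ : Finset Unit), (0 : ℝ) * (1 : ℝ)) (fun V hV => by simp [hV]) k _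
        (mem_union_right _ hx)) ?_
      rw [itF_linear A s (∅ : Finset Unit) (fun _ => (0 : ℝ)) (fun _ _ => 1) k]
      simp
    refine le_trans (add_le_add (Finset.sum_le_sum fun i _ => itF_avoid_le x k _) h2) ?_
    rw [sum_const, nsmul_eq_mul, add_zero, pow_succ']

end Vale.Agent.P064.Fraction
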