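import Vale.Agent.P064.Fraction.Count
import Vale.Agent.P064.Fraction.Defs
import Vale.Agent.P064.DenseMain

/-!
Consequences of the count of embeddings: spread with loss `log (4 + e(H)/|J|)`, the threshold for
a share of the edges, and the threshold for the whole graph in terms of its number of edges.
-/

namespace Vale.Agent.P064.Fraction

open Finset

variable {n v : ℕ}

/-- The constant of the spread bound. -/
def spreadC : ℝ := 9 * countC

/-- The constant of the thresholds. -/
def nearC : ℝ := 192 * spreadC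

theorem spreadC_pos : 0 < spreadC := by norm_num [spreadC, countC]

theorem card_image0 (H : SimpleGraph (Fin v)) (hv : v ≤ n) :
    (image0 H hv).card = H.edgeSet.ncard := by
  classical
  rw [image0, card_map, ← Set.ncard_coe_finset, SimpleGraph.coe_edgeFinset]

theorem spread_log (hv : v ≤ n) (H : SimpleGraph (Fin v)) {q : ℝ} (hq : 0 < q)
    (hR : Rich q (image0 H hv)) (J : Finset (Sym2 (Fin n))) :
    ((inside (pairAct n) (image0 H hv) J).card : ℝ) ≤
      (spreadC * Real.log (4 + (H.edgeSet.ncard : ℝ) / J.card) * q) ^ J.card *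
        (orb (pairAct n) J).card := by
  have hd : (0 : ℝ) ≤ (H.edgeSet.ncard : ℝ) / J.card := by positivity
  have h := spread_at (image0_subset H hv)
    (Q := countC * Real.log (4 + (H.edgeSet.ncard : ℝ) / J.card) * q)
    (mul_nonneg (mul_nonneg (by norm_num [countC]) (Real.log_nonneg (by linarith))) hq.le) J
    fun w F _ hF => by
      have h := embs_le_log (w := w) hq hR F
      rw [card_image0, hF] at h
      rw [hF]
      exact h
  refine h.trans (le_of_eq ?_)
  rw [spreadC]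
  ring

theorem spread_log_le (hv : v ≤ n) (H : SimpleGraph (Fin v)) {q : ℝ} (hq : 0 < q)
    (hR : Rich q (image0 H hv)) {J : Finset (Sym2 (Fin n))} {L : ℝ}
    (hL : Real.log (4 + (H.edgeSet.ncard : ℝ) / J.card) ≤ L) :
    ((inside (pairAct n) (image0 H hv) J).card : ℝ) ≤
      (spreadC * L * q) ^ J.card * (orb (pairAct n) J).card := by
  have hd : (0 : ℝ) ≤ (H.edgeSet.ncard : ℝ) / J.card := by positivity
  refine (spread_log hv H hq hR J).trans (mul_le_mul_of_nonneg_right ?_ (Nat.cast_nonneg _))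
  refine pow_le_pow_left₀ (mul_nonneg (mul_nonneg spreadC_pos.le
    (Real.log_nonneg (by linarith))) hq.le) ?_ _
  exact mul_le_mul_of_nonneg_right (mul_le_mul_of_nonneg_left hL spreadC_pos.le) hq.le

theorem exists_rounds {x : ℝ} (hx : 0 ≤ x) :
    ∃ r : ℕ, x < (2 : ℝ) ^ r ∧ (r : ℝ) ≤ 3 * Real.log (4 + x) := by
  refine ⟨Nat.log 2 ⌈x⌉₊ + 1, ?_, ?_⟩
  · refine (Nat.le_ceil x).trans_lt ?_
    exact_mod_cast Nat.lt_pow_succ_log_self one_lt_two _
  · set m := Nat.log 2 ⌈x⌉₊ with hm
    have h1 : ((2 : ℝ) ^ m) ≤ 4 + x := by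
      rcases Nat.eq_zero_or_pos ⌈x⌉₊ with h | h
      · rw [hm, h, Nat.log_zero_right, pow_zero]; linarith
      · have h6 : (2 : ℝ) ^ m ≤ ⌈x⌉₊ := by exact_mod_cast Nat.pow_log_le_self 2 h.ne'
        linarith [Nat.ceil_lt_add_one hx]
    have h2 := Real.log_le_log (by positivity) h1
    rw [Real.log_pow] at h2
    have h3 : Real.log 4 ≤ Real.log (4 + x) := Real.log_le_log (by norm_num) (by linarith)
    rw [show (4 : ℝ) = 2 ^ 2 by norm_num, Real.log_pow] at h3
    push_cast at h3 ⊢
    have h5 := Real.log_two_gt_d9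
    have h4 : (4 : ℝ) + x = 2 ^ 2 + x := by norm_num
    rw [h4] at h2 ⊢
    nlinarith [Nat.cast_nonneg (α := ℝ) m]

/-- The union of the rounds covers a translate of `H` up to fewer than `M` edges. -/
theorem near_hit (hv : v ≤ n) (H : SimpleGraph (Fin v)) {q : ℝ} (hq : 0 < q)
    (hR : Rich q (image0 H hv)) {M r : ℕ} (hM : 0 < M) (hsize : H.edgeSet.ncard < M * 2 ^ r)
    {L : ℝ} (hL : Real.log (4 + (H.edgeSet.ncard : ℝ) / M) ≤ L) (hr : (r : ℝ) ≤ 3 * L) :
    1 / 2 ≤ expect (pairsOf n) (min 1 (nearC * L ^ 2 * q))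
      (nearInd (orb (pairAct n) (image0 H hv)) id M) := by
  classical
  set E := pairsOf n with hE
  set H0 := image0 H hv with hH0
  set I := orb (pairAct n) H0 with hI
  set g : Finset (Sym2 (Fin n)) → ℝ := nearInd I id M with hg
  have hd : (0 : ℝ) ≤ (H.edgeSet.ncard : ℝ) / M := by positivity
  have hL1 : 1 ≤ L := le_trans (by
    rw [Real.le_log_iff_exp_le (by linarith)]
    linarith [Real.exp_one_lt_d9]) hL
  set κ : ℝ := spreadC * L * q with hκ
  have hκ0 : 0 < κ := mul_pos (mul_pos spreadC_pos (by linarith)) hq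
  rcases le_or_gt 1 (nearC * L ^ 2 * q) with hbig | hsmall
  · have hhit : ∃ i ∈ I, (id i \ E).card < M := ⟨H0, mem_orb_self _ _, by
      rw [id_eq, Finset.sdiff_eq_empty_iff_subset.2 (image0_subset H hv), card_empty]; exact hM⟩
    rw [min_eq_left hbig, expect_one, hg, nearInd, if_pos hhit]
    norm_num
  rw [min_eq_right hsmall.le]
  have hC : nearC * L ^ 2 * q = 3 * L * (64 * κ) := by rw [nearC, hκ]; ring
  have hp1 : 64 * κ ≤ 1 := by nlinarith
  have hN : (0 : ℝ) < (I.card : ℝ) := by exact_mod_cast orb_pos _ H0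
  have hsp := spread_hit_upto E hκ0.le le_rfl (by positivity : (0 : ℝ) < 64 * κ) hp1 hN hM r I id
    le_rfl
    (fun T hT => ⟨orb_subset_pairs (image0_subset H hv) hT, by
      rw [id_eq, card_of_mem_orb _ hT, hH0, card_image0]; exact hsize⟩)
    (fun T hT => by
      have hM' : (0 : ℝ) < M := by exact_mod_cast hM
      have hle : (H.edgeSet.ncard : ℝ) / T.card ≤ (H.edgeSet.ncard : ℝ) / M :=
        div_le_div_of_nonneg_left (Nat.cast_nonneg _) hM' (by exact_mod_cast hT)
      have h1 := spread_log_le hv H hq hR (J := T) (L := L) ((Real.log_le_log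
        (by have : (0 : ℝ) ≤ (H.edgeSet.ncard : ℝ) / T.card := by positivity
            linarith) (by linarith)).trans hL)
      have h2 : (((above (pairAct n) T H0).card : ℝ)) * (orb (pairAct n) T).card =
          (inside (pairAct n) H0 T).card * (I.card : ℝ) := by
        exact_mod_cast above_mul (pairAct n) T H0
      have hp : (0 : ℝ) < (orb (pairAct n) T).card := by exact_mod_cast orb_pos _ T
      have h3 := mul_le_mul_of_nonneg_right h1 hN.le
      rw [← hH0, ← h2] at h3
      refine le_of_mul_le_mul_right ?_ hp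
      calc ((I.filter (T ⊆ id ·)).card : ℝ) * (orb (pairAct n) T).card
          ≤ κ ^ T.card * (orb (pairAct n) T).card * (I.card : ℝ) := h3
        _ = _ := by ring)
  rw [div_self hN.ne'] at hsp
  obtain ⟨c0, c1, c2⟩ := comb_bounds (by positivity : (0 : ℝ) ≤ 64 * κ) hp1 r
  have hmono := expect_le_of_monotone E (f := g) c0
    (c2.trans ((mul_le_mul_of_nonneg_right hr (by positivity)).trans_eq hC.symm)) hsmall
    (fun U V => by
      simp only [hg, nearInd]
      split_ifs with h1 h2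
      · exact le_rfl
      · obtain ⟨i, hi, hiU⟩ := h1
        exact absurd ⟨i, hi, lt_of_le_of_lt
          (card_le_card (sdiff_subset_sdiff subset_rfl subset_union_left)) hiU⟩ h2
      · exact zero_le_one
      · exact le_rfl)
  have : (1 : ℝ) / 4 * (1 - (1 / 2) ^ r) ≤ 1 / 4 := by
    linarith [pow_nonneg (by norm_num : (0 : ℝ) ≤ 1 / 2) r]
  linarith

theorem probNear_ge (hv : v ≤ n) (H : SimpleGraph (Fin v)) {q : ℝ} (hq : 0 < q)
    (hR : Rich q (image0 H hv)) {δ : ℝ} (hδ : 0 < δ) :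
    1 / 2 ≤ probNear n (min 1 (nearC * Real.log (4 + 1 / δ) ^ 2 * q)) δ H := by
  classical
  set ℓ := H.edgeSet.ncard with hℓ
  set M := ⌊δ * ℓ⌋₊ + 1 with hM
  have hM1 : δ * (ℓ : ℝ) < M := by
    rw [hM]; push_cast; exact Nat.lt_floor_add_one _
  obtain ⟨r, hr1, hr2⟩ := exists_rounds (x := 1 / δ) (by positivity)
  have hM0 : 0 < M := by omega
  have hMR : (0 : ℝ) < M := by exact_mod_cast hM0
  have hsize : ℓ < M * 2 ^ r := by
    have h : (ℓ : ℝ) < M * 2 ^ r := by
      rw [div_lt_iff₀ hδ] at hr1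
      have := mul_le_mul_of_nonneg_right hM1.le (show (0 : ℝ) ≤ 2 ^ r by positivity)
      rcases Nat.eq_zero_or_pos ℓ with h0 | h0
      · rw [h0, Nat.cast_zero]; positivity
      · have h0' : (0 : ℝ) < ℓ := by exact_mod_cast h0
        nlinarith
    exact_mod_cast h
  have hL : Real.log (4 + (ℓ : ℝ) / M) ≤ Real.log (4 + 1 / δ) := by
    refine Real.log_le_log (by positivity) (add_le_add le_rfl ?_)
    rw [div_le_div_iff₀ hMR hδ]
    linarith
  refine le_trans (near_hit hv H hq hR hM0 hsize hL hr2) ?_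
  set p := min 1 (nearC * Real.log (4 + 1 / δ) ^ 2 * q) with hp
  have hp0 : 0 ≤ p := le_min zero_le_one (mul_nonneg (mul_nonneg
    (by norm_num [nearC, spreadC, countC]) (sq_nonneg _)) hq.le)
  refine Finset.sum_le_sum fun W _ => ?_
  show wt (pairsOf n) p W * _ ≤ _
  by_cases hW : ∃ T ∈ orb (pairAct n) (image0 H hv), (id T \ W).card < M
  · rw [nearInd, if_pos hW, mul_one, if_pos]
    · rfl
    obtain ⟨T, hT, hTW⟩ := hW
    rw [id_eq] at hTW
    obtain ⟨σ, rfl⟩ := (mem_orb _).1 hT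
    set j : Fin v ↪ Fin n := (Fin.castLEEmb hv).trans σ.toEmbedding with hj
    have hmap : ∀ a b, pairAct n σ s(Fin.castLE hv a, Fin.castLE hv b) = s(j a, j b) := fun a b =>
      pairAct_mk σ _ _
    let F : H.Subgraph :=
      { verts := Set.univ
        Adj := fun a b => H.Adj a b ∧ s(j a, j b) ∈ W
        adj_sub := fun h => h.1
        edge_vert := fun _ => Set.mem_univ _
        symm := ⟨fun a b h => ⟨h.1.symm, by rw [Sym2.eq_swap]; exact h.2⟩⟩ }
    refine ⟨F, ?_, ?_⟩
    · have himg : Sym2.map j '' F.edgeSet =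
          ((tr (pairAct n) σ (image0 H hv) ∩ W : Finset _) : Set (Sym2 (Fin n))) := by
        ext e
        simp only [Set.mem_image, Finset.coe_inter, Set.mem_inter_iff, Finset.mem_coe]
        constructor
        · rintro ⟨e', he', rfl⟩
          induction e' using Sym2.ind with
          | _ a b =>
            refine ⟨?_, he'.2⟩
            rw [Sym2.map_mk, ← hmap]
            exact Finset.mem_map.2 ⟨_, mk_mem_image0.2 ⟨a, b, he'.1, rfl, rfl⟩, rfl⟩
        · rintro ⟨he1, he2⟩
          obtain ⟨e₀, he₀, rfl⟩ := Finset.mem_map.1 he1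
          induction e₀ using Sym2.ind with
          | _ x y =>
            obtain ⟨a, b, hab, rfl, rfl⟩ := mk_mem_image0.1 he₀
            rw [Equiv.coe_toEmbedding, hmap] at he2 ⊢
            exact ⟨s(a, b), ⟨hab, he2⟩, Sym2.map_mk _ _ _⟩
      have hcard : F.edgeSet.ncard = (tr (pairAct n) σ (image0 H hv) ∩ W).card := by
        rw [← Set.ncard_image_of_injective F.edgeSet (Sym2.map.injective j.injective), himg,
          Set.ncard_coe_finset]
      have h1 := Finset.card_sdiff_add_card_inter (tr (pairAct n) σ (image0 H hv)) W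
      rw [card_tr, card_image0, ← hℓ, ← hcard] at h1
      have h2 : ((tr (pairAct n) σ (image0 H hv) \ W).card : ℝ) ≤ δ * ℓ :=
        le_trans (by exact_mod_cast Nat.le_of_lt_succ hTW) (Nat.floor_le (by positivity))
      have h3 : ((tr (pairAct n) σ (image0 H hv) \ W).card : ℝ) + F.edgeSet.ncard = ℓ := by
        exact_mod_cast h1
      rw [← hℓ]
      linarith
    · refine SimpleGraph.copyCount_pos.2 ⟨⟨⟨fun a => j a.1, ?_⟩, ?_⟩⟩
      · intro a b hab
        rw [SimpleGraph.fromEdgeSet_adj]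
        exact ⟨Finset.mem_coe.2 hab.2, j.injective.ne (F.adj_sub hab).ne⟩
      · exact fun a b h => Subtype.ext (j.injective h)
  · rw [nearInd, if_neg hW, mul_zero]
    split_ifs
    · exact wt_nonneg hp0 (min_le_left _ _) W
    · exact le_rfl

theorem probContains_ge_log (hv : v ≤ n) (H : SimpleGraph (Fin v)) {q : ℝ} (hq : 0 < q)
    (hR : Rich q (image0 H hv)) :
    1 / 2 ≤ probContains n
      (min 1 (nearC * Real.log (4 + (H.edgeSet.ncard : ℝ)) ^ 2 * q)) H := by
  classical
  set ℓ := H.edgeSet.ncard with hℓ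
  obtain ⟨r, hr1, hr2⟩ := exists_rounds (x := (ℓ : ℝ)) (Nat.cast_nonneg _)
  have hsize : ℓ < 1 * 2 ^ r := by rw [one_mul]; exact_mod_cast hr1
  refine le_trans (near_hit hv H hq hR Nat.one_pos hsize
    (L := Real.log (4 + (ℓ : ℝ))) (by rw [Nat.cast_one, div_one]) hr2) ?_
  set p := min 1 (nearC * Real.log (4 + (ℓ : ℝ)) ^ 2 * q) with hp
  have hp0 : 0 ≤ p := le_min zero_le_one (mul_nonneg (mul_nonneg
    (by norm_num [nearC, spreadC, countC]) (sq_nonneg _)) hq.le)
  refine Finset.sum_le_sum fun W _ => ?_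
  have heq : nearInd (orb (pairAct n) (image0 H hv)) id 1 W =
      hitInd (orb (pairAct n) (image0 H hv)) id W := by
    simp only [nearInd, hitInd, Nat.lt_one_iff, card_eq_zero, Finset.sdiff_eq_empty_iff_subset]
  rw [heq]
  refine le_trans (mul_le_mul_of_nonneg_left (hitInd_le_contains W)
    (wt_nonneg hp0 (min_le_left _ _) W)) (le_of_eq ?_)
  rw [mul_ite, mul_one, mul_zero]
  rfl

theorem copies_le (hv : v ≤ n) (H : SimpleGraph (Fin v)) {q : ℝ} (hq : 0 < q)
    (hR : Rich q (image0 H hv)) (F : H.Subgraph) :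
    (H.copyCount F.coe : ℝ) / 2 ≤ expCopies n (min 1 (spreadC *
      Real.log (4 + (H.edgeSet.ncard : ℝ) / F.edgeSet.ncard) * q)) F.coe := by
  have hd : (0 : ℝ) ≤ (H.edgeSet.ncard : ℝ) / F.edgeSet.ncard := by positivity
  refine frac_of_spread_at hv H (mul_nonneg (mul_nonneg spreadC_pos.le
    (Real.log_nonneg (by linarith))) hq.le) F fun _ J hJ => ?_
  exact spread_log_le hv H hq hR (le_of_eq (by rw [hJ]))

theorem log_div_le (a : ℝ) (b : ℕ) (ha : 0 ≤ a) : Real.log (4 + a / b) ≤ Real.log (4 + a) := by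
  refine Real.log_le_log (by positivity) (add_le_add le_rfl ?_)
  rcases Nat.eq_zero_or_pos b with rfl | hb
  · simp [ha]
  · exact div_le_self ha (by exact_mod_cast hb)

theorem pFrac_le_log (hv : v ≤ n) (H : SimpleGraph (Fin v)) (hH : H.edgeSet.Nonempty) :
    pFrac n H ≤ spreadC * Real.log (4 + (H.edgeSet.ncard : ℝ)) * pE n H := by
  have hc : 0 < spreadC * Real.log (4 + (H.edgeSet.ncard : ℝ)) :=
    mul_pos spreadC_pos (Real.log_pos (by linarith [Nat.cast_nonneg (α := ℝ) H.edgeSet.ncard]))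
  rw [← div_le_iff₀' hc]
  refine le_csInf ⟨1, one_mem hv H⟩ fun q hq => ?_
  rw [div_le_iff₀' hc]
  have hR := rich_of_hyp hv H hq.1 hq.2
  have hq0 := q_pos hv H hH hq.1 hR
  have hp1 := mul_pos hc hq0
  refine le_trans (csInf_le ⟨0, fun p hp => hp.1.1⟩ ⟨⟨le_min zero_le_one hp1.le, min_le_left _ _⟩,
    fun F => frac_of_spread hv H hp1.le (fun _ J => spread_log_le hv H hq0 hR
      (log_div_le _ _ (Nat.cast_nonneg _))) F⟩) (min_le_right _ _)

theorem pC_le_log (hv : v ≤ n) (H : SimpleGraph (Fin v)) (hH : H.edgeSet.Nonempty) :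
    pC n H ≤ nearC * Real.log (4 + (H.edgeSet.ncard : ℝ)) ^ 2 * pE n H := by
  have hc : 0 < nearC * Real.log (4 + (H.edgeSet.ncard : ℝ)) ^ 2 :=
    mul_pos (by norm_num [nearC, spreadC, countC])
      (pow_pos (Real.log_pos (by linarith [Nat.cast_nonneg (α := ℝ) H.edgeSet.ncard])) 2)
  rw [← div_le_iff₀' hc]
  refine le_csInf ⟨1, one_mem hv H⟩ fun q hq => ?_
  rw [div_le_iff₀' hc]
  have hR := rich_of_hyp hv H hq.1 hq.2
  have hq0 := q_pos hv H hH hq.1 hR
  exact le_trans (csInf_le ⟨0, fun p hp => hp.1.1⟩ ⟨⟨le_min zero_le_one (mul_pos hc hq0).le,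
    min_le_left _ _⟩, probContains_ge_log hv H hq0 hR⟩) (min_le_right _ _)

theorem pNear_le (hv : v ≤ n) (H : SimpleGraph (Fin v)) (hH : H.edgeSet.Nonempty) {δ : ℝ}
    (hδ : 0 < δ) :
    pNear n δ H ≤ nearC * Real.log (4 + 1 / δ) ^ 2 * pE n H := by
  have hc : 0 < nearC * Real.log (4 + 1 / δ) ^ 2 :=
    mul_pos (by norm_num [nearC, spreadC, countC])
      (pow_pos (Real.log_pos (by linarith [one_div_pos.2 hδ])) 2)
  rw [← div_le_iff₀' hc]
  refine le_csInf ⟨1, one_mem hv H⟩ fun q hq => ?_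
  rw [div_le_iff₀' hc]
  have hR := rich_of_hyp hv H hq.1 hq.2
  have hq0 := q_pos hv H hH hq.1 hR
  exact le_trans (csInf_le ⟨0, fun p hp => hp.1.1⟩ ⟨⟨le_min zero_le_one (mul_pos hc hq0).le,
    min_le_left _ _⟩, probNear_ge hv H hq0 hR hδ⟩) (min_le_right _ _)

end Vale.Agent.P064.Fraction
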